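import Mathlib
import Vale.Agent.P309.Upper2

/-
P309: the least horizon of memory bounded learners for noiseless Gaussian regression.
-/

open MeasureTheory ProbabilityTheory
open Vale.Agent.P309
open scoped RealInnerProductSpace ENNReal

theorem Vale.Agent.Results.P309.HorizonTradeoff.result :
    ∀ C : ℝ, ∃ c' ε₀ : ℝ, ∃ d₀ : ℕ, 0 < c' ∧ 0 < ε₀ ∧ ∀ d : ℕ, d₀ ≤ d →
      IsProbabilityMeasure (uniformSphere d) ∧
      ∀ ε : ℝ, 0 < ε → ε ≤ ε₀ →
      (∀ N T : ℕ, ∀ (Ω : Type) [MeasurableSpace Ω] (P : Measure Ω) [IsProbabilityMeasure P]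
        (init : Ω → Fin N)
        (step : ℕ → Ω → Fin N → EuclideanSpace ℝ (Fin d) → ℝ → Fin N × Bool)
        (out : Ω → Fin N → EuclideanSpace ℝ (Fin d)),
        Measurable init →
        (∀ t q, Measurable fun p : Ω × EuclideanSpace ℝ (Fin d) × ℝ =>
          step t p.1 q p.2.1 p.2.2) →
        (∀ q, Measurable fun ω => out ω q) →
        (2 / 3 ≤ P.prod ((uniformSphere d).prod
            (Measure.pi fun _ : Fin T => stdGaussian (EuclideanSpace ℝ (Fin d))))
            {p | ‖out p.1 (finalState (fun t => step t p.1) (init p.1) p.2.1 p.2.2) - p.2.1‖ ≤ ε} ∨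
          ((∀ ω q, ‖out ω q‖ = 1) ∧ 2 / 3 ≤ P.prod ((uniformSphere d).prod
            (Measure.pi fun _ : Fin T => stdGaussian (EuclideanSpace ℝ (Fin d))))
            {p | Real.arccos ⟪out p.1 (finalState (fun t => step t p.1) (init p.1) p.2.1 p.2.2),
              p.2.1⟫ ≤ ε})) →
        ((N : ℝ) ≤ 2 ^ (C * (d : ℝ) ^ 2) → c' * d * Real.log (1 / ε) ≤ T) ∧
          1 / 2 < (N : ℝ) * (4 ^ d * ε ^ (d - 1))) ∧
      (∃ N T : ℕ, (N : ℝ) ≤ 2 ^ (8 * (d : ℝ) * Real.log (d / ε)) ∧
        (T : ℝ) ≤ 15 * d * Real.log (1 / ε) ∧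
        ∃ (q0 : Fin N) (step : ℕ → Fin N → EuclideanSpace ℝ (Fin d) → ℝ → Fin N × Bool)
          (out : Fin N → EuclideanSpace ℝ (Fin d)),
          (∀ t q, Measurable fun p : EuclideanSpace ℝ (Fin d) × ℝ => step t q p.1 p.2) ∧
          (∀ q, ‖out q‖ = 1) ∧
          ∀ s : EuclideanSpace ℝ (Fin d), ‖s‖ = 1 →
            2 / 3 ≤ Measure.pi (fun _ : Fin T => stdGaussian (EuclideanSpace ℝ (Fin d)))
              {X | Real.arccos ⟪out (finalState step q0 s X), s⟫ ≤ ε}) := by
  intro C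
  obtain ⟨c, ε0, d0, hc, hε0, hd0, h⟩ := success_le_half (C := max C 0) (le_max_right _ _)
  refine ⟨c, min ε0 (1 / 10), d0, hc, lt_min hε0 (by norm_num), fun d hd => ?_⟩
  have hprob := sphere_prob (d := d) (by omega)
  refine ⟨hprob, fun ε hε hεle => ⟨?_,
    grid_learner (by omega) hε (hεle.trans (min_le_right _ _))⟩⟩
  intro N T Ω _ P _ init step out hinit hstep hout hsucc
  set μ := P.prod ((uniformSphere d).prod
    (Measure.pi fun _ : Fin T => stdGaussian (EuclideanSpace ℝ (Fin d)))) with hμ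
  have hs : 2 / 3 ≤ μ {p |
      ‖out p.1 (finalState (fun t => step t p.1) (init p.1) p.2.1 p.2.2) - p.2.1‖ ≤ ε} := by
    rcases hsucc with hs | ⟨hunit, hs⟩
    · exact hs
    · refine hs.trans (measure_mono_ae ?_)
      have hae : ∀ᵐ p ∂μ, ‖p.2.1‖ = 1 := by
        rw [hμ]
        exact (Measure.quasiMeasurePreserving_fst.comp Measure.quasiMeasurePreserving_snd).ae
          sphere_norm
      filter_upwards [hae] with p hp hang
      exact norm_sub_le_of_arccos (hunit _ _) hp hang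
  have hcontra : ¬ (2 / 3 : ℝ≥0∞) ≤ ENNReal.ofReal (1 / 2) := by
    rw [show (2 / 3 : ℝ≥0∞) = ENNReal.ofReal (2 / 3) by
      rw [ENNReal.ofReal_div_of_pos (by norm_num)]; norm_num,
      ENNReal.ofReal_le_ofReal_iff (by norm_num)]
    norm_num
  refine ⟨fun hN => ?_, ?_⟩
  · by_contra hlt
    push Not at hlt
    have hN' : (N : ℝ) ≤ 2 ^ (max C 0 * (d : ℝ) ^ 2) := hN.trans
      (Real.rpow_le_rpow_of_exponent_le one_le_two
        (mul_le_mul_of_nonneg_right (le_max_left _ _) (sq_nonneg _)))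
    exact hcontra (hs.trans (h d hd ε hε (hεle.trans (min_le_left _ _)) N T hN' hlt Ω P init step
      out hinit hstep hout))
  · by_contra hN
    push Not at hN
    exact hcontra (hs.trans (few_states (by omega) hε hN P init step out hout))
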